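import Vale.Agent.P119.K1.Mild
import Vale.Agent.P119.KE.Damp

/-!
# The collision data of a potential, and the mild form in the notation of `KE` (P119, block K1)
-/

open MeasureTheory Filter Topology Set ProbabilityTheory
open scoped ENNReal NNReal RealInnerProductSpace

noncomputable section

namespace Vale.Agent.P119.K1

variable {Φ : E3 → ℝ} {β T : ℝ} {f₀ : Ph → ℝ} {f : ℝ → Ph → ℝ}

/-- The collision data of the potential. -/
def collOf (hΦ : IsPotential Φ) : KE.Coll where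
  toGain := gainOf hΦ
  k v w := ENNReal.ofReal disk * ‖v - w‖ₑ
  meas_k := by fun_prop
  loss_gauss b hb v := by
    calc _ = ∫⁻ w : E3, ENNReal.ofReal disk *
          (‖v - w‖ₑ * ENNReal.ofReal (Real.exp (-b * ‖w‖ ^ 2))) := by
          refine lintegral_congr fun w => ?_
          rw [KE.gs, one_mul, mul_assoc]
      _ = ENNReal.ofReal disk *
          ∫⁻ w : E3, ‖v - w‖ₑ * ENNReal.ofReal (Real.exp (-b * ‖w‖ ^ 2)) :=
          lintegral_const_mul _ (by fun_prop)
      _ ≤ ENNReal.ofReal disk * ENNReal.ofReal (momInt b * (1 + ‖v‖)) := by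
          gcongr
          exact lintegral_norm_sub_gauss hb v
      _ = _ := by
          rw [← ENNReal.ofReal_mul disk_nonneg, ← mul_assoc]
          rfl

theorem collOf_nu (hΦ : IsPotential Φ) (h : E3 → ℝ≥0∞) (v : E3) :
    (collOf hΦ).nu h v = nuOf h v := by
  unfold KE.Coll.nu nuOf
  rw [← lintegral_const_mul' _ _ ENNReal.ofReal_ne_top]
  refine lintegral_congr fun w => ?_
  change ENNReal.ofReal disk * ‖v - w‖ₑ * h w = _
  ring

theorem collOf_dampArg (hΦ : IsPotential Φ) (h : ℝ → E3 → E3 → ℝ≥0∞) (s t : ℝ) (x v : E3) :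
    (collOf hΦ).dampArg h s t x v = Nint h s t x v := by
  unfold KE.Coll.dampArg Nint
  simp_rw [collOf_nu]

theorem Nint_fhat (hβ : 0 < β) (h : RegSol Φ β f₀ T f) (x v : E3) {s t : ℝ}
    (hs : 0 ≤ s) (hst : s ≤ t) (ht : t ≤ T) : Nint (fhat T f) s t x v ≠ ∞ := by
  have hsT : s ∈ Icc 0 T := ⟨hs, hst.trans ht⟩
  have htT : t ∈ Icc 0 T := ⟨hs.trans hst, ht⟩
  have h3 : Nint (fhat T f) s t x v =
      ENNReal.ofReal (∫ u in s..t, nR f u (x - t • v + u • v) v) := by
    rw [intervalIntegral.integral_of_le hst, ofReal_integral_eq_lintegral_ofReal]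
    · unfold Nint
      refine setLIntegral_congr_fun measurableSet_Ioc fun u hu => ?_
      rw [nuOf_fhat hβ h ⟨hs.trans hu.1.le, hu.2.trans ht⟩]
      congr 2
      module
    · exact (intervalIntegrable_iff_integrableOn_Ioc_of_le hst).1
        (intervalIntegrable_nR hβ h _ v hsT htT)
    · filter_upwards [ae_restrict_mem measurableSet_Ioc] with u hu
      exact nR_nonneg h ⟨hs.trans hu.1.le, hu.2.trans ht⟩ _ _
  rw [h3]
  exact ENNReal.ofReal_ne_top

theorem damp_fhat (hΦ : IsPotential Φ) (hβ : 0 < β) (h : RegSol Φ β f₀ T f) (x v : E3)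
    {s t : ℝ} (hs : 0 ≤ s) (hst : s ≤ t) (ht : t ≤ T) :
    (collOf hΦ).damp (fhat T f) s t x v = surv (fhat T f) s t x v := by
  unfold KE.Coll.damp surv
  rw [collOf_dampArg, KE.en_of_ne_top (Nint_fhat hβ h x v hs hst ht)]

/-- The initial datum with values in `[0, ∞]`. -/
def f0hat (f₀ : Ph → ℝ) (x v : E3) : ℝ≥0∞ := ENNReal.ofReal (f₀ (x, v))

theorem measurable_f0 (hT : 0 < T) (h : RegSol Φ β f₀ T f) : Measurable f₀ := by
  have h0 : (0 : ℝ) ∈ Icc 0 T := ⟨le_rfl, hT.le⟩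
  have h1 : ContinuousOn (fun w : Ph => ((0, w) : ℝ × Ph)) univ := by fun_prop
  have h2 := h.cont.comp h1 (fun w _ => (⟨h0, mem_univ _⟩ :
    ((0, w) : ℝ × Ph) ∈ Icc 0 T ×ˢ univ))
  have h3 : Continuous (f 0) := continuousOn_univ.1 h2
  rw [h.init] at h3
  exact h3.measurable

theorem measurable_f0hat (hT : 0 < T) (h : RegSol Φ β f₀ T f) :
    Measurable fun p : E3 × E3 => f0hat f₀ p.1 p.2 := by
  have := measurable_f0 hT h
  unfold f0hat
  fun_prop

/-- **Mild form** of a regular solution, in the notation of `KE.Coll.Mild`. -/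
theorem mild_of_regular (hΦ : IsPotential Φ) (hβ : 0 < β) (hT : 0 < T)
    (h : RegSol Φ β f₀ T f) :
    (collOf hΦ).Mild (f0hat f₀) (measurable_f0hat hT h) T (fhat T f) := by
  refine ⟨jm_fhat h, ⟨jm_fhat h, fun t ht x v => ?_⟩⟩
  have h1 := (isSol hΦ hβ hT h (measurable_f0 hT h)).eq t ht x v
  rw [h1]
  congr 1
  · change ENNReal.ofReal (f₀ (x - t • v, v)) * surv (fhat T f) 0 t x v =
      f0hat f₀ (x - t • v) v * (collOf hΦ).damp (fhat T f) 0 t x v
    rw [damp_fhat hΦ hβ h x v le_rfl ht.1 ht.2]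
    rfl
  · unfold KE.MildData.duh
    refine setLIntegral_congr_fun measurableSet_Ioc fun s hs => ?_
    change surv (fhat T f) s t x v * _ = (collOf hΦ).damp (fhat T f) s t x v * _
    rw [damp_fhat hΦ hβ h x v hs.1.le hs.2 ht.2]
    rfl

/-- The Gaussian bound in the notation of `KE`. -/
theorem exists_fhat_le (h : RegSol Φ β f₀ T f) : ∃ C : ℝ, 0 ≤ C ∧
    ∀ t x v, fhat T f t x v ≤ KE.gs C (2 * β) v := by
  obtain ⟨C, hC0, hC⟩ := exists_bound h
  exact ⟨C, hC0, fhat_le hC⟩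

end Vale.Agent.P119.K1
end
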