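import Vale.Agent.P119.Bdl.B4

/-!
# P119: classical solutions of the kinetic equation, without regularity in the velocity
(`helper376`)

`RegSol Φ β f₀ T f` is `IsRegularSolution` with a weaker regularity: `f` is continuous and, for every
velocity, `C¹` in `(t, x)`.
-/

open MeasureTheory Filter Topology Set
open scoped ENNReal RealInnerProductSpace

namespace Vale.Agent.P119

/-- `f` is a solution showing that `[0, T]` is a regular kinetic interval; `C¹` in `(t, x)`,
continuous in `(t, x, v)`. -/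
structure RegSol (Φ : E3 → ℝ) (β : ℝ) (f₀ : Ph → ℝ) (T : ℝ) (f : ℝ → Ph → ℝ) : Prop where
  init : f 0 = f₀
  nonneg : ∀ t ∈ Icc 0 T, ∀ z, 0 ≤ f t z
  integral_eq : ∀ t ∈ Icc 0 T, Integrable (f t) ∧ ∫ z, f t z = 1
  cont : ContinuousOn (fun p : ℝ × Ph => f p.1 p.2) (Icc 0 T ×ˢ univ)
  contDiff : ∀ v : E3, ContDiffOn ℝ 1 (fun p : ℝ × E3 => f p.1 (p.2, v)) (Icc 0 T ×ˢ univ)
  equation : ∀ t ∈ Icc 0 T, ∀ x v : E3,
    derivWithin (fun s => f s (x, v)) (Icc 0 T) t + ⟪v, gradient (fun y => f t (y, v)) x⟫ =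
      collision Φ (fun w => f t (x, w)) v
  bound : ∃ C, ∀ t ∈ Icc 0 T, ∀ x v : E3, Real.exp (2 * β * ‖v‖ ^ 2) * f t (x, v) ≤ C

variable {Φ : E3 → ℝ} {β T : ℝ} {f₀ : Ph → ℝ} {f : ℝ → Ph → ℝ}

theorem IsRegularSolution.regSol (h : IsRegularSolution Φ β f₀ T f) : RegSol Φ β f₀ T f where
  init := h.init
  nonneg := h.nonneg
  integral_eq := h.integral_eq
  cont := h.contDiff.continuousOn
  contDiff v := by
    have h1 : ContDiffOn ℝ 1 (fun p : ℝ × E3 => ((p.1, (p.2, v)) : ℝ × Ph))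
        (Icc 0 T ×ˢ univ) := by
      fun_prop
    exact h.contDiff.comp h1 fun p hp => ⟨hp.1, mem_univ _⟩
  equation := h.equation
  bound := h.bound

namespace RegSol

/-- The derivative of a solution along characteristics. -/
theorem hasDerivWithinAt (hT : 0 < T) (h : RegSol Φ β f₀ T f) (x v : E3) {s : ℝ}
    (hs : s ∈ Icc 0 T) :
    HasDerivWithinAt (fun u => f u (x + u • v, v))
      (collision Φ (fun w => f s (x + s • v, w)) v) (Icc 0 T) s := by
  set F : ℝ × E3 → ℝ := fun p => f p.1 (p.2, v) with hF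
  have hd : DifferentiableWithinAt ℝ F (Icc 0 T ×ˢ univ) (s, x + s • v) :=
    ((h.contDiff v).differentiableOn (by norm_num)) _ ⟨hs, mem_univ _⟩
  set L := fderivWithin ℝ F (Icc 0 T ×ˢ univ) (s, x + s • v) with hL
  have hdf : HasFDerivWithinAt F L (Icc 0 T ×ˢ univ) (s, x + s • v) := hd.hasFDerivWithinAt
  have hm1 : MapsTo (fun u : ℝ => ((u, x + u • v) : ℝ × E3)) (Icc 0 T)
      (Icc 0 T ×ˢ univ) := fun u hu => ⟨hu, mem_univ _⟩
  have hm2 : MapsTo (fun u : ℝ => ((u, x + s • v) : ℝ × E3)) (Icc 0 T)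
      (Icc 0 T ×ˢ univ) := fun u hu => ⟨hu, mem_univ _⟩
  have hm3 : MapsTo (fun y : E3 => ((s, y) : ℝ × E3)) univ
      (Icc 0 T ×ˢ univ) := fun y _ => ⟨hs, mem_univ _⟩
  -- along the characteristic
  have hγ : HasDerivWithinAt (fun u : ℝ => ((u, x + u • v) : ℝ × E3)) (1, v) (Icc 0 T) s := by
    have h1 : HasDerivAt (fun u : ℝ => x + u • v) v s := by
      simpa using ((hasDerivAt_id s).smul_const v).const_add x
    exact ((hasDerivAt_id s).prodMk h1).hasDerivWithinAt
  have hchar : HasDerivWithinAt (fun u => f u (x + u • v, v)) (L (1, v)) (Icc 0 T) s := by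
    have h1 : HasDerivWithinAt (F ∘ fun u : ℝ => ((u, x + u • v) : ℝ × E3))
        (L (1, v)) (Icc 0 T) s := hdf.comp_hasDerivWithinAt s hγ hm1
    exact h1
  -- time derivative
  have hγt : HasDerivWithinAt (fun u : ℝ => ((u, x + s • v) : ℝ × E3)) (1, 0)
      (Icc 0 T) s :=
    ((hasDerivAt_id s).prodMk (hasDerivAt_const s (x + s • v))).hasDerivWithinAt
  have ht : HasDerivWithinAt (fun u => f u (x + s • v, v)) (L (1, 0)) (Icc 0 T) s := by
    have h1 : HasDerivWithinAt (F ∘ fun u : ℝ => ((u, x + s • v) : ℝ × E3))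
        (L (1, 0)) (Icc 0 T) s := hdf.comp_hasDerivWithinAt s hγt hm2
    exact h1
  have ht' := ht.derivWithin (uniqueDiffOn_Icc hT s hs)
  -- space derivative
  have hγx : HasFDerivWithinAt (fun y : E3 => ((s, y) : ℝ × E3))
      ((0 : E3 →L[ℝ] ℝ).prod (ContinuousLinearMap.id ℝ E3)) univ (x + s • v) :=
    ((hasFDerivAt_const s _).prodMk (hasFDerivAt_id _)).hasFDerivWithinAt
  have hx : HasFDerivAt (fun y : E3 => f s (y, v))
      (L.comp ((0 : E3 →L[ℝ] ℝ).prod (ContinuousLinearMap.id ℝ E3))) (x + s • v) := by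
    rw [← hasFDerivWithinAt_univ]
    exact hdf.comp (x + s • v) hγx hm3
  have heq := h.equation s hs (x + s • v) v
  rw [ht', real_inner_comm, gradient, InnerProductSpace.toDual_symm_apply, hx.fderiv] at heq
  rw [← heq]
  convert hchar using 1
  simp only [ContinuousLinearMap.comp_apply, ContinuousLinearMap.prod_apply,
    zero_apply, ContinuousLinearMap.id_apply]
  rw [← map_add]
  simp

end RegSol

end Vale.Agent.P119
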