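import Vale.Agent.P119.Bdl.B4
import Vale.Agent.P119.KU.Scat4
import Vale.Agent.P119.KE.Kern

/-!
# Impact parameters: a measurable parametrisation of the discs (P119, block K1)
-/

open MeasureTheory Filter Topology Set ProbabilityTheory
open scoped ENNReal NNReal RealInnerProductSpace

noncomputable section

namespace Vale.Agent.P119.K1

/-- A fixed unit vector. -/
def e0 : E3 := EuclideanSpace.single 0 1

theorem norm_e0 : ‖e0‖ = 1 := by simp [e0]

theorem e0_ne : e0 ≠ 0 := by
  intro h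
  have := norm_e0
  rw [h, norm_zero] at this
  norm_num at this

/-- The unit disc orthogonal to `V`. -/
def disc (V : E3) : Set E3 := {ρ : E3 | ‖ρ‖ < 1 ∧ ⟪ρ, V⟫ = 0}

theorem measurableSet_disc (V : E3) : MeasurableSet (disc V) := by
  have h1 : MeasurableSet {ρ : E3 | ‖ρ‖ < 1} := measurableSet_lt (by fun_prop) (by fun_prop)
  have h2 : MeasurableSet {ρ : E3 | ⟪ρ, V⟫ = 0} := measurableSet_eq_fun (by fun_prop) (by fun_prop)
  exact h1.inter h2

/-- The measure of impact parameters, orthogonal to `e0`. -/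
def sig : Measure E3 := (μHE[2] : Measure E3).restrict (disc e0)

theorem sig_univ_lt : sig univ < ∞ := by
  have hemb : MeasurableEmbedding (Subtype.val : (ℝ ∙ e0)ᗮ → E3) :=
    MeasurableEmbedding.subtype_coe (Submodule.isClosed_orthogonal _).measurableSet
  have h3 : disc e0 = Subtype.val '' Metric.ball (0 : (ℝ ∙ e0)ᗮ) 1 := by
    ext x
    simp only [disc, mem_ofPred_eq, mem_image, Metric.mem_ball, dist_zero_right, Subtype.exists]
    constructor
    · rintro ⟨h1, h2⟩
      exact ⟨x, Submodule.mem_orthogonal_singleton_iff_inner_left.2 h2, h1, rfl⟩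
    · rintro ⟨a, ha, h1, rfl⟩
      exact ⟨h1, Submodule.mem_orthogonal_singleton_iff_inner_left.1 ha⟩
  have h1 : (μHE[2] : Measure (ℝ ∙ e0)ᗮ) = volume := by
    rw [← Bridge.finrank_orthogonal e0_ne, InnerProductSpace.euclideanHausdorffMeasure_eq_volume]
  rw [sig, Measure.restrict_apply_univ, h3, isometry_subtype_coe.euclideanHausdorffMeasure_image, h1]
  exact measure_ball_lt_top

instance : IsFiniteMeasure sig := ⟨sig_univ_lt⟩

/-- The vector defining the reflection which exchanges `e0` and `V / |V|`. -/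
def uv (V : E3) : E3 := e0 - ‖V‖⁻¹ • V

/-- The reflection exchanging `e0` and `V / |V|`. -/
def refl (V ξ : E3) : E3 := ξ - (2 * (⟪uv V, ξ⟫ / ‖uv V‖ ^ 2)) • uv V

theorem measurable_refl : Measurable fun p : E3 × E3 => refl p.1 p.2 := by
  unfold refl uv
  fun_prop

theorem refl_eq (V ξ : E3) : refl V ξ = (ℝ ∙ uv V)ᗮ.reflection ξ := by
  rw [Submodule.reflection_orthogonal_apply, Submodule.reflection_singleton_apply, refl]
  simp only [RCLike.ofReal_real_eq_id, id_eq]
  rw [neg_sub, sub_eq_sub_iff_add_eq_add, two_smul, mul_comm, mul_two, add_smul]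

theorem refl_coe (V : E3) : refl V = ⇑((ℝ ∙ uv V)ᗮ.reflection) := funext fun ξ => refl_eq V ξ

theorem refl_e0 {V : E3} (hV : V ≠ 0) : refl V e0 = ‖V‖⁻¹ • V := by
  rw [refl_eq, uv]
  refine Submodule.reflection_sub ?_
  rw [norm_smul, norm_inv, norm_norm, inv_mul_cancel₀ (norm_ne_zero_iff.2 hV), norm_e0]

theorem refl_preimage_disc {V : E3} (hV : V ≠ 0) : refl V ⁻¹' disc V = disc e0 := by
  ext ξ
  simp only [disc, mem_preimage, mem_ofPred_eq]
  have h1 : ‖refl V ξ‖ = ‖ξ‖ := by rw [refl_eq, LinearIsometryEquiv.norm_map]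
  have h2 : ⟪refl V ξ, V⟫ = ‖V‖ * ⟪ξ, e0⟫ := by
    have h3 : V = ‖V‖ • refl V e0 := by
      rw [refl_e0 hV, smul_smul, mul_inv_cancel₀ (norm_ne_zero_iff.2 hV), one_smul]
    have h4 : ⟪refl V ξ, refl V e0⟫ = ⟪ξ, e0⟫ := by
      rw [refl_eq, refl_eq, LinearIsometryEquiv.inner_map_map]
    calc ⟪refl V ξ, V⟫ = ⟪refl V ξ, ‖V‖ • refl V e0⟫ := by rw [← h3]
      _ = _ := by rw [inner_smul_right, h4]
  rw [h1, h2, mul_eq_zero, or_iff_right (norm_ne_zero_iff.2 hV)]

theorem measurableEmbedding_refl (V : E3) : MeasurableEmbedding (refl V) := by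
  rw [refl_coe]
  exact ((ℝ ∙ uv V)ᗮ.reflection).toHomeomorph.measurableEmbedding

/-- The disc measure of `V` is the image of the fixed one under the reflection. -/
theorem map_refl {V : E3} (hV : V ≠ 0) :
    sig.map (refl V) = (μHE[2] : Measure E3).restrict (disc V) := by
  have h1 : (μHE[2] : Measure E3).map (refl V) = μHE[2] := by
    rw [refl_coe, ((ℝ ∙ uv V)ᗮ.reflection).isometry.map_euclideanHausdorffMeasure,
      ((ℝ ∙ uv V)ᗮ.reflection).surjective.range_eq, Measure.restrict_univ]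
  rw [sig, ← refl_preimage_disc hV, ← (measurableEmbedding_refl V).restrict_map, h1]

theorem lintegral_disc {V : E3} (hV : V ≠ 0) (F : E3 → ℝ≥0∞) :
    ∫⁻ ρ in disc V, F ρ ∂μHE[2] = ∫⁻ ξ, F (refl V ξ) ∂sig := by
  rw [← map_refl hV, (measurableEmbedding_refl V).lintegral_map]

theorem integral_disc {V : E3} (hV : V ≠ 0) (F : E3 → ℝ) :
    ∫ ρ in disc V, F ρ ∂μHE[2] = ∫ ξ, F (refl V ξ) ∂sig := by
  rw [← map_refl hV, (measurableEmbedding_refl V).integral_map]

end Vale.Agent.P119.K1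
end
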