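import Vale.Agent.P119.K1.Disk

/-!
# The gain operator of a potential as a kernel (P119, block K1)
-/

open MeasureTheory Filter Topology Set ProbabilityTheory
open scoped ENNReal NNReal RealInnerProductSpace

noncomputable section

namespace Vale.Agent.P119.K1

variable {Φ : E3 → ℝ}

/-- Outgoing relative velocity, as a function of `V` and of the coded impact parameter. -/
def relOut (Φ : E3 → ℝ) (p : E3 × E3) : E3 := (KU.scat Φ (refl p.1 p.2, p.1)).2

theorem measurable_relOut (hΦ : IsPotential Φ) : Measurable (relOut Φ) :=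
  ((KU.measurable_scat hΦ).comp (measurable_refl.prodMk measurable_fst)).snd

theorem norm_relOut (hΦ : IsPotential Φ) (p : E3 × E3) : ‖relOut Φ p‖ = ‖p.1‖ :=
  KU.scat_snd_norm hΦ _

theorem relOut_eq (hΦ : IsPotential Φ) {V : E3} (hV : V ≠ 0) (ξ : E3) :
    outVel Φ V (refl V ξ) = relOut Φ (V, ξ) := KU.outVel_eq hΦ _ hV

/-- The collision map `(v, v_*, ξ) ↦ (v', v'_*)`. -/
def post (Φ : E3 → ℝ) (q : E3 × (E3 × E3)) : E3 × E3 :=
  ((2 : ℝ)⁻¹ • (q.1 + q.2.1 + relOut Φ (q.1 - q.2.1, q.2.2)),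
    (2 : ℝ)⁻¹ • (q.1 + q.2.1 - relOut Φ (q.1 - q.2.1, q.2.2)))

theorem measurable_post (hΦ : IsPotential Φ) : Measurable (post Φ) := by
  have h := (measurable_relOut hΦ).comp
    (by fun_prop : Measurable fun q : E3 × (E3 × E3) => (q.1 - q.2.1, q.2.2))
  unfold post
  simp only [Function.comp_def] at h
  fun_prop

theorem post_energy (hΦ : IsPotential Φ) (q : E3 × (E3 × E3)) :
    ‖(post Φ q).1‖ ^ 2 + ‖(post Φ q).2‖ ^ 2 = ‖q.1‖ ^ 2 + ‖q.2.1‖ ^ 2 :=
  post_norm_sq (norm_relOut hΦ _)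

/-- The kernel of collision partners and impact parameters, with the factor `|v - v_*|`. -/
def eta : Kernel E3 (E3 × E3) :=
  Kernel.withDensity (Kernel.const E3 ((volume : Measure E3).prod sig))
    (fun v p => ((‖v - p.1‖₊ : ℝ≥0) : ℝ≥0∞))

instance : IsSFiniteKernel eta := by
  unfold eta
  infer_instance

theorem lintegral_eta {F : E3 × E3 → ℝ≥0∞} (hF : Measurable F) (v : E3) :
    ∫⁻ p, F p ∂(eta v) = ∫⁻ p, ‖v - p.1‖ₑ * F p ∂((volume : Measure E3).prod sig) := by
  unfold eta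
  rw [Kernel.lintegral_withDensity _ _ _ hF]
  · rfl
  · simp only [Function.uncurry_def]
    fun_prop

/-- The kernel of the gain term. -/
def colK (Φ : E3 → ℝ) : Kernel E3 (E3 × E3) := (Kernel.id ×ₖ eta).map (post Φ)

instance : IsSFiniteKernel (colK Φ) := by
  unfold colK
  infer_instance

theorem lintegral_colK (hΦ : IsPotential Φ) {F : E3 × E3 → ℝ≥0∞} (hF : Measurable F) (v : E3) :
    ∫⁻ p, F p ∂(colK Φ v) =
      ∫⁻ p, ‖v - p.1‖ₑ * F (post Φ (v, p)) ∂((volume : Measure E3).prod sig) := by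
  have hm := measurable_post hΦ
  have h1 := Kernel.lintegral_id_prod (hF.comp hm) eta v
  simp only [Function.comp_def] at h1
  rw [colK, Kernel.lintegral_map _ hm _ hF, h1, lintegral_eta]
  exact hF.comp (hm.comp (by fun_prop))

theorem momInt_anti {b b' : ℝ} (hb : 0 < b) (hbb : b ≤ b') : momInt b' ≤ momInt b := by
  have hb' : 0 < b' := hb.trans_le hbb
  have h1 : ∀ w : E3, Real.exp (-b' * ‖w‖ ^ 2) ≤ Real.exp (-b * ‖w‖ ^ 2) := fun w => by
    apply Real.exp_le_exp.2
    nlinarith [sq_nonneg ‖w‖]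
  unfold momInt
  refine add_le_add (integral_mono (integrable_gauss hb') (integrable_gauss hb) h1)
    (integral_mono (integrable_norm_gauss hb') (integrable_norm_gauss hb) fun w => ?_)
  exact mul_le_mul_of_nonneg_left (h1 w) (norm_nonneg _)

/-- Mass of the impact disc. -/
def disk : ℝ := sig.real univ

theorem disk_nonneg : 0 ≤ disk := measureReal_nonneg

theorem ofReal_disk : ENNReal.ofReal disk = sig univ := by
  rw [disk, Measure.real, ENNReal.ofReal_toReal sig_univ_lt.ne]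

theorem lintegral_norm_sub_gauss {b : ℝ} (hb : 0 < b) (v : E3) :
    ∫⁻ vs : E3, ‖v - vs‖ₑ * ENNReal.ofReal (Real.exp (-b * ‖vs‖ ^ 2)) ≤
      ENNReal.ofReal (momInt b * (1 + ‖v‖)) := by
  have hI0 := integrable_gauss hb
  have hI1 := integrable_norm_gauss hb
  have hI : Integrable (fun vs : E3 => ‖v‖ * Real.exp (-b * ‖vs‖ ^ 2) +
      ‖vs‖ * Real.exp (-b * ‖vs‖ ^ 2)) := (hI0.const_mul ‖v‖).add hI1
  have h0 : ∀ vs : E3, 0 ≤ ‖v‖ * Real.exp (-b * ‖vs‖ ^ 2) +
      ‖vs‖ * Real.exp (-b * ‖vs‖ ^ 2) := fun vs => by positivity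
  calc _ ≤ ∫⁻ vs : E3, ENNReal.ofReal (‖v‖ * Real.exp (-b * ‖vs‖ ^ 2) +
      ‖vs‖ * Real.exp (-b * ‖vs‖ ^ 2)) := by
        refine lintegral_mono fun vs => ?_
        rw [← ofReal_norm, ← ENNReal.ofReal_mul (norm_nonneg _), ← add_mul]
        exact ENNReal.ofReal_le_ofReal
          (mul_le_mul_of_nonneg_right (norm_sub_le _ _) (Real.exp_pos _).le)
    _ = ENNReal.ofReal (∫ vs : E3, (‖v‖ * Real.exp (-b * ‖vs‖ ^ 2) +
      ‖vs‖ * Real.exp (-b * ‖vs‖ ^ 2))) :=
        (ofReal_integral_eq_lintegral_ofReal hI (Eventually.of_forall h0)).symm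
    _ ≤ _ := by
        apply ENNReal.ofReal_le_ofReal
        rw [integral_add (hI0.const_mul ‖v‖) hI1, integral_const_mul]
        have hG0 : 0 ≤ ∫ w : E3, Real.exp (-b * ‖w‖ ^ 2) :=
          integral_nonneg fun v => (Real.exp_pos _).le
        have hG1 : 0 ≤ ∫ w : E3, ‖w‖ * Real.exp (-b * ‖w‖ ^ 2) :=
          integral_nonneg fun v => mul_nonneg (norm_nonneg _) (Real.exp_pos _).le
        unfold momInt
        nlinarith [mul_nonneg (norm_nonneg v) hG1, hG0]

/-- The gain operator of the potential. -/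
def gainOf (hΦ : IsPotential Φ) : KE.Gain where
  K := colK Φ
  sf := inferInstance
  R b := disk * momInt b
  R_nonneg b := mul_nonneg disk_nonneg (momInt_nonneg b)
  R_anti _ _ hb hbb := mul_le_mul_of_nonneg_left (momInt_anti hb hbb) disk_nonneg
  gauss b hb v := by
    rw [lintegral_colK hΦ (by fun_prop)]
    calc _ = ∫⁻ p : E3 × E3, ENNReal.ofReal (Real.exp (-b * ‖v‖ ^ 2)) *
          (‖v - p.1‖ₑ * ENNReal.ofReal (Real.exp (-b * ‖p.1‖ ^ 2)))
            ∂((volume : Measure E3).prod sig) := by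
          refine lintegral_congr fun p => ?_
          rw [post_energy hΦ]
          simp only
          rw [mul_add, Real.exp_add, ENNReal.ofReal_mul (Real.exp_pos _).le]
          ring
      _ = ENNReal.ofReal (Real.exp (-b * ‖v‖ ^ 2)) * ((∫⁻ vs : E3,
          ‖v - vs‖ₑ * ENNReal.ofReal (Real.exp (-b * ‖vs‖ ^ 2))) * sig univ) := by
          rw [lintegral_const_mul _ (by fun_prop),
            lintegral_prod _ (by fun_prop : Measurable fun p : E3 × E3 =>
              ‖v - p.1‖ₑ * ENNReal.ofReal (Real.exp (-b * ‖p.1‖ ^ 2))).aemeasurable]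
          simp only [lintegral_const]
          rw [lintegral_mul_const _ (by fun_prop)]
      _ ≤ ENNReal.ofReal (Real.exp (-b * ‖v‖ ^ 2)) *
          (ENNReal.ofReal (momInt b * (1 + ‖v‖)) * ENNReal.ofReal disk) := by
          rw [ofReal_disk]
          gcongr
          exact lintegral_norm_sub_gauss hb v
      _ = _ := by
          have := momInt_nonneg b
          have := disk_nonneg
          rw [← ENNReal.ofReal_mul (by positivity), ← ENNReal.ofReal_mul (Real.exp_pos _).le]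
          congr 1
          ring

theorem gainOf_Q (hΦ : IsPotential Φ) {h k : E3 → ℝ≥0∞} (mh : Measurable h) (mk : Measurable k)
    (v : E3) : (gainOf hΦ).Q h k v =
      ∫⁻ vs, ∫⁻ ξ, ‖v - vs‖ₑ * (h (post Φ (v, (vs, ξ))).1 * k (post Φ (v, (vs, ξ))).2) ∂sig := by
  have hm := measurable_post hΦ
  have h1 : Measurable fun p : E3 × E3 => post Φ (v, p) := hm.comp (by fun_prop)
  have h2 : Measurable fun p : E3 × E3 =>
      ‖v - p.1‖ₑ * (h (post Φ (v, p)).1 * k (post Φ (v, p)).2) :=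
    (by fun_prop : Measurable fun p : E3 × E3 => ‖v - p.1‖ₑ).mul
      ((mh.comp h1.fst).mul (mk.comp h1.snd))
  have h3 : Measurable fun p : E3 × E3 => h p.1 * k p.2 :=
    (mh.comp measurable_fst).mul (mk.comp measurable_snd)
  calc (gainOf hΦ).Q h k v = ∫⁻ p, h p.1 * k p.2 ∂(colK Φ v) := rfl
    _ = _ := by rw [lintegral_colK hΦ h3, lintegral_prod _ h2.aemeasurable]

/-- The loss rate. -/
def nuOf (h : E3 → ℝ≥0∞) (v : E3) : ℝ≥0∞ := ENNReal.ofReal disk * ∫⁻ vs : E3, ‖v - vs‖ₑ * h vs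


/-- The collision operator is gain minus loss. -/
theorem collision_eq_gain (hΦ : IsPotential Φ) {γ C : ℝ} (hγ : 0 < γ) {h : E3 → ℝ}
    (mh : Measurable h) (h0 : ∀ w, 0 ≤ h w) (hC : ∀ w, h w ≤ C * Real.exp (-γ * ‖w‖ ^ 2))
    (v : E3) :
    collision Φ h v = ((gainOf hΦ).Q (fun w => ENNReal.ofReal (h w))
        (fun w => ENNReal.ofReal (h w)) v).toReal -
      h v * (nuOf (fun w => ENNReal.ofReal (h w)) v).toReal ∧
    (gainOf hΦ).Q (fun w => ENNReal.ofReal (h w)) (fun w => ENNReal.ofReal (h w)) v < ∞ ∧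
    nuOf (fun w => ENNReal.ofReal (h w)) v < ∞ := by
  have hC0 : 0 ≤ C := by
    have := (h0 0).trans (hC 0)
    simpa using this
  have hm := measurable_post hΦ
  have h1 : Measurable fun p : E3 × E3 => post Φ (v, p) := hm.comp (by fun_prop)
  set A : E3 × E3 → ℝ := fun p => ‖v - p.1‖ * (h (post Φ (v, p)).1 * h (post Φ (v, p)).2) with hA
  set B : E3 × E3 → ℝ := fun p => ‖v - p.1‖ * (h v * h p.1) with hB
  have mA : Measurable A := (by fun_prop : Measurable fun p : E3 × E3 => ‖v - p.1‖).mul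
      ((mh.comp h1.fst).mul (mh.comp h1.snd))
  have mB : Measurable B := (by fun_prop : Measurable fun p : E3 × E3 => ‖v - p.1‖).mul
      ((mh.comp measurable_fst).const_mul _)
  have hA0 : ∀ p, 0 ≤ A p := fun p => mul_nonneg (norm_nonneg _) (mul_nonneg (h0 _) (h0 _))
  have hB0 : ∀ p, 0 ≤ B p := fun p => mul_nonneg (norm_nonneg _) (mul_nonneg (h0 _) (h0 _))
  -- finiteness
  have hhat : ∀ w, ENNReal.ofReal (h w) ≤ KE.gs C γ w := fun w => ENNReal.ofReal_le_ofReal (hC w)
  have hQ : (gainOf hΦ).Q (fun w => ENNReal.ofReal (h w)) (fun w => ENNReal.ofReal (h w)) v < ∞ :=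
    ((((gainOf hΦ).Q_mono hhat hhat v).trans ((gainOf hΦ).Q_gs hC0 hC0 hγ v))).trans_lt
      ENNReal.ofReal_lt_top
  have hN : nuOf (fun w => ENNReal.ofReal (h w)) v < ∞ := by
    refine ENNReal.mul_lt_top ENNReal.ofReal_lt_top ?_
    have h2 : ∫⁻ vs : E3, ‖v - vs‖ₑ * ENNReal.ofReal (h vs) ≤
        ENNReal.ofReal C * ∫⁻ vs : E3, ‖v - vs‖ₑ * ENNReal.ofReal (Real.exp (-γ * ‖vs‖ ^ 2)) := by
      rw [← lintegral_const_mul _ (by fun_prop)]
      refine lintegral_mono fun vs => ?_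
      calc ‖v - vs‖ₑ * ENNReal.ofReal (h vs)
          ≤ ‖v - vs‖ₑ * ENNReal.ofReal (C * Real.exp (-γ * ‖vs‖ ^ 2)) := by
            gcongr
            exact hC vs
        _ = _ := by rw [ENNReal.ofReal_mul hC0]; ring
    exact h2.trans_lt (ENNReal.mul_lt_top ENNReal.ofReal_lt_top
      ((lintegral_norm_sub_gauss hγ v).trans_lt ENNReal.ofReal_lt_top))
  have eA : ∫⁻ p, ENNReal.ofReal (A p) ∂((volume : Measure E3).prod sig) =
      (gainOf hΦ).Q (fun w => ENNReal.ofReal (h w)) (fun w => ENNReal.ofReal (h w)) v := by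
    rw [gainOf_Q hΦ (by fun_prop) (by fun_prop), lintegral_prod _ (by fun_prop)]
    refine lintegral_congr fun vs => lintegral_congr fun ξ => ?_
    simp only [hA]
    rw [ENNReal.ofReal_mul (norm_nonneg _), ENNReal.ofReal_mul (h0 _), ofReal_norm]
  have eB : ∫⁻ p, ENNReal.ofReal (B p) ∂((volume : Measure E3).prod sig) =
      ENNReal.ofReal (h v) * nuOf (fun w => ENNReal.ofReal (h w)) v := by
    rw [lintegral_prod _ (by fun_prop), nuOf, ← mul_assoc, mul_comm (ENNReal.ofReal (h v)),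
      mul_assoc, ← lintegral_const_mul _ (by fun_prop), ← lintegral_const_mul _ (by fun_prop)]
    refine lintegral_congr fun vs => ?_
    simp only [hB, lintegral_const]
    rw [ofReal_disk, ENNReal.ofReal_mul (norm_nonneg _), ENNReal.ofReal_mul (h0 _), ofReal_norm]
    ring
  have iA : Integrable A ((volume : Measure E3).prod sig) := by
    refine ⟨mA.aestronglyMeasurable, ?_⟩
    rw [hasFiniteIntegral_iff_ofReal (Eventually.of_forall hA0), eA]
    exact hQ
  have iB : Integrable B ((volume : Measure E3).prod sig) := by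
    refine ⟨mB.aestronglyMeasurable, ?_⟩
    rw [hasFiniteIntegral_iff_ofReal (Eventually.of_forall hB0), eB]
    exact ENNReal.mul_lt_top ENNReal.ofReal_lt_top hN
  refine ⟨?_, hQ, hN⟩
  rw [← Bridge.collision_eq]
  unfold Stmt.collision
  have h5 : ∀ vs : E3, ∫ ρ in {ρ : E3 | ‖ρ‖ < 1 ∧ ⟪ρ, v - vs⟫ = 0},
      ‖v - vs‖ * (h ((2 : ℝ)⁻¹ • (v + vs + Stmt.outVel (gradient Φ) (v - vs) ρ)) *
      h ((2 : ℝ)⁻¹ • (v + vs - Stmt.outVel (gradient Φ) (v - vs) ρ)) - h v * h vs) ∂μHE[2] =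
      ∫ ξ, (A (vs, ξ) - B (vs, ξ)) ∂sig := by
    intro vs
    by_cases hv : v - vs = 0
    · simp [hv, hA, hB]
    · rw [show {ρ : E3 | ‖ρ‖ < 1 ∧ ⟪ρ, v - vs⟫ = 0} = disc (v - vs) from rfl, integral_disc hv]
      refine integral_congr_ae (Eventually.of_forall fun ξ => ?_)
      simp only [hA, hB, post, Bridge.outVel_eq, relOut_eq hΦ hv]
      ring
  simp_rw [h5]
  have h6 := integral_prod _ (iA.sub iB)
  simp only [Pi.sub_apply] at h6
  rw [← h6, integral_sub iA iB,
    integral_eq_lintegral_of_nonneg_ae (Eventually.of_forall hA0) mA.aestronglyMeasurable,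
    integral_eq_lintegral_of_nonneg_ae (Eventually.of_forall hB0) mB.aestronglyMeasurable,
    eA, eB, ENNReal.toReal_mul, ENNReal.toReal_ofReal (h0 v)]

end Vale.Agent.P119.K1
end
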