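import Vale.Agent.P119.K1.GainInst
import Vale.Agent.P119.K1.Reg
import Vale.Agent.P119.KE.Picard

/-!
# Mild form of a regular solution (P119, block K1)
-/

open MeasureTheory Filter Topology Set ProbabilityTheory
open scoped ENNReal NNReal RealInnerProductSpace

noncomputable section

namespace Vale.Agent.P119.K1

variable {Φ : E3 → ℝ} {β T : ℝ} {f₀ : Ph → ℝ} {f : ℝ → Ph → ℝ}

/-- The solution with values in `[0, ∞]`, extended by `0` outside `[0, T]`. -/
def fhat (T : ℝ) (f : ℝ → Ph → ℝ) (t : ℝ) (x v : E3) : ℝ≥0∞ :=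
  (Icc 0 T).indicator (fun s => ENNReal.ofReal (f s (x, v))) t

theorem fhat_of_mem {t : ℝ} (ht : t ∈ Icc 0 T) (x v : E3) :
    fhat T f t x v = ENNReal.ofReal (f t (x, v)) := indicator_of_mem ht _

theorem fhat_of_notMem {t : ℝ} (ht : t ∉ Icc 0 T) (x v : E3) : fhat T f t x v = 0 :=
  indicator_of_notMem ht _

theorem jm_fhat (h : RegSol Φ β f₀ T f) : KE.JM (fhat T f) := by
  have hc : ContinuousOn (fun p : ℝ × Ph => ENNReal.ofReal (f p.1 p.2)) (Icc 0 T ×ˢ univ) :=
    ENNReal.continuous_ofReal.comp_continuousOn h.cont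
  have h1 : Measurable ((Icc (0 : ℝ) T ×ˢ (univ : Set Ph)).piecewise
      (fun p : ℝ × Ph => ENNReal.ofReal (f p.1 p.2)) (fun _ => 0)) :=
    hc.measurable_piecewise continuousOn_const (measurableSet_Icc.prod MeasurableSet.univ)
  have e : (fun p : ℝ × E3 × E3 => fhat T f p.1 p.2.1 p.2.2) =
      (Icc (0 : ℝ) T ×ˢ (univ : Set Ph)).piecewise
      (fun p : ℝ × Ph => ENNReal.ofReal (f p.1 p.2)) (fun _ => 0) := by
    ext p
    by_cases hp : p.1 ∈ Icc 0 T
    · rw [fhat_of_mem hp, piecewise_eq_of_mem _ _ _ (show p ∈ Icc (0 : ℝ) T ×ˢ (univ : Set Ph) from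
        ⟨hp, mem_univ _⟩)]
    · rw [fhat_of_notMem hp, piecewise_eq_of_notMem _ _ _
        (show p ∉ Icc (0 : ℝ) T ×ˢ (univ : Set Ph) from fun hh => hp hh.1)]
  unfold KE.JM
  rw [e]
  exact h1

/-- The Gaussian bound. -/
theorem exists_bound (h : RegSol Φ β f₀ T f) : ∃ C : ℝ, 0 ≤ C ∧
    ∀ t ∈ Icc 0 T, ∀ x v : E3, f t (x, v) ≤ C * Real.exp (-(2 * β) * ‖v‖ ^ 2) := by
  obtain ⟨C, hC⟩ := h.bound
  refine ⟨max C 0, le_max_right _ _, fun t ht x v => ?_⟩
  have h1 := (hC t ht x v).trans (le_max_left C 0)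
  have h2 : Real.exp (-(2 * β) * ‖v‖ ^ 2) = (Real.exp (2 * β * ‖v‖ ^ 2))⁻¹ := by
    rw [← Real.exp_neg]
    congr 1
    ring
  rw [h2, ← div_eq_mul_inv, le_div_iff₀ (Real.exp_pos _), mul_comm]
  exact h1

theorem fhat_le {C : ℝ} (hC : ∀ t ∈ Icc 0 T, ∀ x v : E3,
    f t (x, v) ≤ C * Real.exp (-(2 * β) * ‖v‖ ^ 2)) (t : ℝ) (x v : E3) :
    fhat T f t x v ≤ KE.gs C (2 * β) v := by
  by_cases ht : t ∈ Icc 0 T
  · rw [fhat_of_mem ht]
    exact ENNReal.ofReal_le_ofReal (hC t ht x v)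
  · rw [fhat_of_notMem ht]
    exact zero_le

theorem jm_nuOf {g : ℝ → E3 → E3 → ℝ≥0∞} (hg : KE.JM g) {α : Type*} [MeasurableSpace α]
    {a : α → ℝ} {b c : α → E3} (ha : Measurable a) (hb : Measurable b) (hc : Measurable c) :
    Measurable fun q => nuOf (g (a q) (b q)) (c q) := by
  unfold nuOf
  refine Measurable.const_mul ?_ _
  have h1 : Measurable fun p : α × E3 => ‖c p.1 - p.2‖ₑ * g (a p.1) (b p.1) p.2 := by
    refine Measurable.mul (by fun_prop) ?_
    exact hg.comp (ha.comp measurable_fst) (hb.comp measurable_fst) measurable_snd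
  exact h1.lintegral_prod_right'

/-- The damping exponent along the line through `(x, v)` at time `t`, during `(s, t]`. -/
def Nint (g : ℝ → E3 → E3 → ℝ≥0∞) (s t : ℝ) (x v : E3) : ℝ≥0∞ :=
  ∫⁻ τ in Ioc s t, nuOf (g τ (x - (t - τ) • v)) v

theorem measurable_Nint {g : ℝ → E3 → E3 → ℝ≥0∞} (hg : KE.JM g) :
    Measurable fun p : ℝ × ℝ × E3 × E3 => Nint g p.1 p.2.1 p.2.2.1 p.2.2.2 := by
  have h1 : Measurable fun q : (ℝ × ℝ × E3 × E3) × ℝ =>
      (Ioc q.1.1 q.1.2.1).indicator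
        (fun τ => nuOf (g τ (q.1.2.2.1 - (q.1.2.1 - τ) • q.1.2.2.2)) q.1.2.2.2) q.2 := by
    have h2 : (fun q : (ℝ × ℝ × E3 × E3) × ℝ =>
      (Ioc q.1.1 q.1.2.1).indicator
        (fun τ => nuOf (g τ (q.1.2.2.1 - (q.1.2.1 - τ) • q.1.2.2.2)) q.1.2.2.2) q.2) =
        {q : (ℝ × ℝ × E3 × E3) × ℝ | q.1.1 < q.2 ∧ q.2 ≤ q.1.2.1}.indicator
        (fun q => nuOf (g q.2 (q.1.2.2.1 - (q.1.2.1 - q.2) • q.1.2.2.2)) q.1.2.2.2) := by
      ext q
      by_cases hq : q.1.1 < q.2 ∧ q.2 ≤ q.1.2.1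
      · rw [indicator_of_mem (show q.2 ∈ Ioc q.1.1 q.1.2.1 from hq),
          indicator_of_mem (by exact hq)]
      · rw [indicator_of_notMem (show q.2 ∉ Ioc q.1.1 q.1.2.1 from hq),
          indicator_of_notMem (by exact hq)]
    rw [h2]
    refine Measurable.indicator ?_ ?_
    · exact jm_nuOf hg (by fun_prop) (by fun_prop) (by fun_prop)
    · exact (measurableSet_lt (by fun_prop : Measurable fun q : (ℝ × ℝ × E3 × E3) × ℝ => q.1.1)
        measurable_snd).inter (measurableSet_le measurable_snd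
          (by fun_prop : Measurable fun q : (ℝ × ℝ × E3 × E3) × ℝ => q.1.2.1))
  have h3 := Measurable.lintegral_prod_right' (ν := (volume : Measure ℝ)) h1
  unfold Nint
  simp_rw [lintegral_indicator measurableSet_Ioc] at h3
  exact h3

/-- The survival factor. -/
def surv (g : ℝ → E3 → E3 → ℝ≥0∞) (s t : ℝ) (x v : E3) : ℝ≥0∞ :=
  ENNReal.ofReal (Real.exp (-(Nint g s t x v).toReal))

/-- The mild data of the equation with initial datum `f₀` and damping by `g`. -/
def mildData (f₀ : Ph → ℝ) (mf : Measurable f₀) (g : ℝ → E3 → E3 → ℝ≥0∞) (hg : KE.JM g) :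
    KE.MildData where
  g₀ t x v := ENNReal.ofReal (f₀ (x - t • v, v)) * surv g 0 t x v
  S := surv g
  mg := by
    have m1 : Measurable fun p : ℝ × E3 × E3 =>
        ENNReal.ofReal (f₀ (p.2.1 - p.1 • p.2.2, p.2.2)) :=
      (mf.comp (by fun_prop)).ennreal_ofReal
    have h1 := (measurable_Nint hg).comp
      (by fun_prop : Measurable fun p : ℝ × E3 × E3 => ((0 : ℝ), p.1, p.2.1, p.2.2))
    have m2 : Measurable fun p : ℝ × E3 × E3 => surv g 0 p.1 p.2.1 p.2.2 := by
      simp only [Function.comp_def] at h1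
      unfold surv
      fun_prop
    exact m1.mul m2
  mS := by
    have h1 := measurable_Nint hg
    unfold surv
    fun_prop
  S_le s t x v := by
    unfold surv
    rw [← ENNReal.ofReal_one]
    refine ENNReal.ofReal_le_ofReal (Real.exp_le_one_iff.2 ?_)
    simp

/-! ### The real valued loss rate along a characteristic -/

/-- Real valued loss rate. -/
def nR (f : ℝ → Ph → ℝ) (s : ℝ) (x v : E3) : ℝ := disk * ∫ vs : E3, ‖v - vs‖ * f s (x, vs)

/-- Real valued gain. -/
def qR (hΦ : IsPotential Φ) (T : ℝ) (f : ℝ → Ph → ℝ) (s : ℝ) (x v : E3) : ℝ :=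
  ((gainOf hΦ).Q (fhat T f s x) (fhat T f s x) v).toReal

theorem continuous_slice (h : RegSol Φ β f₀ T f) {s : ℝ} (hs : s ∈ Icc 0 T) (x : E3) :
    Continuous fun w : E3 => f s (x, w) := by
  have h1 : ContinuousOn (fun w : E3 => ((s, (x, w)) : ℝ × Ph)) univ := by fun_prop
  have h2 := h.cont.comp h1 (fun w _ => (⟨hs, mem_univ _⟩ :
    ((s, (x, w)) : ℝ × Ph) ∈ Icc 0 T ×ˢ univ))
  exact continuousOn_univ.1 h2

theorem continuousOn_char (h : RegSol Φ β f₀ T f) (y v w : E3) :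
    ContinuousOn (fun s : ℝ => f s (y + s • v, w)) (Icc 0 T) := by
  have h1 : ContinuousOn (fun s : ℝ => ((s, (y + s • v, w)) : ℝ × Ph)) (Icc 0 T) := by fun_prop
  exact h.cont.comp h1 (fun s hs => (⟨hs, mem_univ _⟩ :
    ((s, (y + s • v, w)) : ℝ × Ph) ∈ Icc 0 T ×ˢ univ))

theorem continuousOn_nR (hβ : 0 < β) (h : RegSol Φ β f₀ T f) (y v : E3) :
    ContinuousOn (fun s : ℝ => nR f s (y + s • v) v) (Icc 0 T) := by
  obtain ⟨C, hC0, hC⟩ := exists_bound h
  have hb : 0 < 2 * β := by positivity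
  unfold nR
  refine ContinuousOn.const_mul ?_ _ |>.congr fun s _ => rfl
  refine continuousOn_of_dominated (bound := fun vs : E3 =>
    ‖v‖ * (C * Real.exp (-(2 * β) * ‖vs‖ ^ 2)) + C * (‖vs‖ * Real.exp (-(2 * β) * ‖vs‖ ^ 2)))
    ?_ ?_ ?_ ?_
  · intro s hs
    have := continuous_slice h hs (y + s • v)
    exact ((continuous_const.sub continuous_id).norm.mul this).aestronglyMeasurable
  · intro s hs
    refine Eventually.of_forall fun vs => ?_
    have h1 := hC s hs (y + s • v) vs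
    have h0 := h.nonneg s hs (y + s • v, vs)
    rw [Real.norm_of_nonneg (mul_nonneg (norm_nonneg _) h0)]
    have h2 : ‖v - vs‖ ≤ ‖v‖ + ‖vs‖ := norm_sub_le _ _
    have h3 : 0 ≤ C * Real.exp (-(2 * β) * ‖vs‖ ^ 2) := by positivity
    calc ‖v - vs‖ * f s (y + s • v, vs)
        ≤ (‖v‖ + ‖vs‖) * (C * Real.exp (-(2 * β) * ‖vs‖ ^ 2)) :=
          mul_le_mul h2 h1 h0 (by positivity)
      _ = _ := by ring
  · exact ((integrable_gauss hb).const_mul C |>.const_mul _).add
      ((integrable_norm_gauss hb).const_mul C)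
  · exact Eventually.of_forall fun vs => (continuousOn_char h y v vs).const_mul _

theorem nR_nonneg (h : RegSol Φ β f₀ T f) {s : ℝ} (hs : s ∈ Icc 0 T) (x v : E3) :
    0 ≤ nR f s x v :=
  mul_nonneg disk_nonneg (integral_nonneg fun _ => mul_nonneg (norm_nonneg _) (h.nonneg s hs _))

theorem integrable_nR (hβ : 0 < β) (h : RegSol Φ β f₀ T f) {s : ℝ}
    (hs : s ∈ Icc 0 T) (x v : E3) : Integrable fun vs : E3 => ‖v - vs‖ * f s (x, vs) := by
  obtain ⟨C, hC0, hC⟩ := exists_bound h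
  have hb : 0 < 2 * β := by positivity
  have hint : Integrable (fun vs : E3 =>
      ‖v‖ * (C * Real.exp (-(2 * β) * ‖vs‖ ^ 2)) + C * (‖vs‖ * Real.exp (-(2 * β) * ‖vs‖ ^ 2))) :=
    ((integrable_gauss hb).const_mul C |>.const_mul _).add
      ((integrable_norm_gauss hb).const_mul C)
  have hc := continuous_slice h hs x
  refine hint.mono' ((continuous_const.sub continuous_id).norm.mul hc).aestronglyMeasurable
    (Eventually.of_forall fun vs => ?_)
  have h1 := hC s hs x vs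
  have h0 := h.nonneg s hs (x, vs)
  rw [Real.norm_of_nonneg (mul_nonneg (norm_nonneg _) h0)]
  have h2 : ‖v - vs‖ ≤ ‖v‖ + ‖vs‖ := norm_sub_le _ _
  have h3 : 0 ≤ C * Real.exp (-(2 * β) * ‖vs‖ ^ 2) := by positivity
  calc ‖v - vs‖ * f s (x, vs)
      ≤ (‖v‖ + ‖vs‖) * (C * Real.exp (-(2 * β) * ‖vs‖ ^ 2)) :=
        mul_le_mul h2 h1 h0 (by positivity)
    _ = _ := by ring

theorem nuOf_fhat (hβ : 0 < β) (h : RegSol Φ β f₀ T f) {s : ℝ} (hs : s ∈ Icc 0 T)
    (x v : E3) : nuOf (fhat T f s x) v = ENNReal.ofReal (nR f s x v) := by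
  unfold nuOf nR
  rw [ENNReal.ofReal_mul disk_nonneg,
    ofReal_integral_eq_lintegral_ofReal (integrable_nR hβ h hs x v)
      (Eventually.of_forall fun vs => mul_nonneg (norm_nonneg _) (h.nonneg s hs _))]
  congr 1
  refine lintegral_congr fun vs => ?_
  rw [fhat_of_mem hs, ENNReal.ofReal_mul (norm_nonneg _), ofReal_norm]

theorem collision_eq_qR (hΦ : IsPotential Φ) (hβ : 0 < β) (h : RegSol Φ β f₀ T f)
    {s : ℝ} (hs : s ∈ Icc 0 T) (x v : E3) :
    collision Φ (fun w => f s (x, w)) v = qR hΦ T f s x v - nR f s x v * f s (x, v) ∧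
      (gainOf hΦ).Q (fhat T f s x) (fhat T f s x) v < ∞ := by
  obtain ⟨C, hC0, hC⟩ := exists_bound h
  have hb : 0 < 2 * β := by positivity
  have e : fhat T f s x = fun w => ENNReal.ofReal (f s (x, w)) :=
    funext fun w => fhat_of_mem hs x w
  obtain ⟨h1, h2, h3⟩ := collision_eq_gain hΦ hb (continuous_slice h hs x).measurable
    (fun w => h.nonneg s hs (x, w)) (hC s hs x) v
  rw [← e] at h1 h2
  refine ⟨?_, h2⟩
  rw [h1, nuOf_fhat hβ h hs, ENNReal.toReal_ofReal (nR_nonneg h hs x v), qR]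
  ring

/-! ### The equation along a characteristic, integrated -/

section Char

variable (hΦ : IsPotential Φ) (hβ : 0 < β) (hT : 0 < T) (h : RegSol Φ β f₀ T f)

theorem contDiffOn_char (h : RegSol Φ β f₀ T f) (y v : E3) :
    ContDiffOn ℝ 1 (fun s : ℝ => f s (y + s • v, v)) (Icc 0 T) := by
  have h1 : ContDiffOn ℝ 1 (fun s : ℝ => ((s, y + s • v) : ℝ × E3)) (Icc 0 T) := by
    fun_prop
  exact (h.contDiff v).comp h1 (fun s hs => (⟨hs, mem_univ _⟩ :
    ((s, y + s • v) : ℝ × E3) ∈ Icc 0 T ×ˢ univ))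

include hΦ hβ hT h in
theorem continuousOn_qR (y v : E3) :
    ContinuousOn (fun s : ℝ => qR hΦ T f s (y + s • v) v) (Icc 0 T) := by
  have h1 := (contDiffOn_char h y v).continuousOn_derivWithin (uniqueDiffOn_Icc hT) le_rfl
  have h2 := h1.add ((continuousOn_nR hβ h y v).mul (continuousOn_char h y v v))
  refine h2.congr fun s hs => ?_
  have h3 := (h.hasDerivWithinAt hT y v hs).derivWithin (uniqueDiffOn_Icc hT s hs)
  simp only [Pi.add_apply, Pi.mul_apply]
  rw [h3, (collision_eq_qR hΦ hβ h hs _ v).1]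
  ring

/-- Primitive of the loss rate. -/
def prim (f : ℝ → Ph → ℝ) (y v : E3) (s : ℝ) : ℝ := ∫ u in (0 : ℝ)..s, nR f u (y + u • v) v

include hβ h in
theorem intervalIntegrable_nR (y v : E3) {a b : ℝ} (ha : a ∈ Icc 0 T) (hb : b ∈ Icc 0 T) :
    IntervalIntegrable (fun u => nR f u (y + u • v) v) volume a b :=
  ((continuousOn_nR hβ h y v).mono ((convex_Icc 0 T).ordConnected.uIcc_subset ha hb)).intervalIntegrable

include hβ h in
theorem hasDerivAt_prim (y v : E3) {s : ℝ} (hs : s ∈ Ioo 0 T) :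
    HasDerivAt (prim f y v) (nR f s (y + s • v) v) s := by
  have h0 : (0 : ℝ) ∈ Icc 0 T := ⟨le_rfl, (hs.1.trans hs.2).le⟩
  have hn : Icc 0 T ∈ 𝓝 s := Icc_mem_nhds hs.1 hs.2
  refine intervalIntegral.integral_hasDerivAt_right
    (intervalIntegrable_nR hβ h y v h0 ⟨hs.1.le, hs.2.le⟩) ?_
    ((continuousOn_nR hβ h y v).continuousAt hn)
  exact (continuousOn_nR hβ h y v).stronglyMeasurableAtFilter_nhdsWithin measurableSet_Icc s |>.filter_mono
    (by rw [nhdsWithin_eq_nhds.2 hn])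

include hβ h in
theorem continuousOn_prim (y v : E3) : ContinuousOn (prim f y v) (Icc 0 T) := by
  by_cases hT' : 0 ≤ T
  · have h1 := intervalIntegral.continuousOn_primitive_interval'
      (intervalIntegrable_nR hβ h y v (a := 0) (b := T) ⟨le_rfl, hT'⟩ ⟨hT', le_rfl⟩)
      left_mem_uIcc
    rw [uIcc_of_le hT'] at h1
    exact h1
  · rw [Icc_eq_empty hT']
    exact continuousOn_empty _

include hΦ hβ hT h in
theorem mild_real (y v : E3) {t : ℝ} (ht : t ∈ Icc 0 T) :
    f t (y + t • v, v) = f₀ (y, v) * Real.exp (-(prim f y v t)) +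
      ∫ s in (0 : ℝ)..t, Real.exp (-(prim f y v t - prim f y v s)) *
        qR hΦ T f s (y + s • v) v := by
  set ψ : ℝ → ℝ := fun s => f s (y + s • v, v) * Real.exp (prim f y v s) with hψ
  have hsub : Icc 0 t ⊆ Icc 0 T := Icc_subset_Icc le_rfl ht.2
  have hcont : ContinuousOn ψ (Icc 0 t) :=
    ((continuousOn_char h y v v).mul (continuousOn_prim hβ h y v).rexp).mono hsub
  have hder : ∀ s ∈ Ioo 0 t, HasDerivAt ψ
      (Real.exp (prim f y v s) * qR hΦ T f s (y + s • v) v) s := by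
    intro s hs
    have hs' : s ∈ Ioo 0 T := ⟨hs.1, hs.2.trans_le ht.2⟩
    have h1 := (h.hasDerivWithinAt hT y v (Ioo_subset_Icc_self hs')).hasDerivAt
      (Icc_mem_nhds hs'.1 hs'.2)
    have h2 := (hasDerivAt_prim hβ h y v hs').exp
    refine (h1.mul h2).congr_deriv ?_
    rw [(collision_eq_qR hΦ hβ h (Ioo_subset_Icc_self hs') _ v).1]
    ring
  have hint : IntervalIntegrable
      (fun s => Real.exp (prim f y v s) * qR hΦ T f s (y + s • v) v) volume 0 t := by
    refine ContinuousOn.intervalIntegrable ?_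
    rw [uIcc_of_le ht.1]
    exact ((continuousOn_prim hβ h y v).rexp.mul (continuousOn_qR hΦ hβ hT h y v)).mono hsub
  have h3 := intervalIntegral.integral_eq_sub_of_hasDerivAt_of_le ht.1 hcont hder hint
  have h4 : ψ 0 = f₀ (y, v) := by
    simp [hψ, prim, h.init]
  have h5 : ∫ s in (0 : ℝ)..t, Real.exp (-(prim f y v t - prim f y v s)) *
        qR hΦ T f s (y + s • v) v = Real.exp (-(prim f y v t)) *
      ∫ s in (0 : ℝ)..t, Real.exp (prim f y v s) * qR hΦ T f s (y + s • v) v := by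
    rw [← intervalIntegral.integral_const_mul]
    refine intervalIntegral.integral_congr fun s _ => ?_
    rw [← mul_assoc, ← Real.exp_add]
    ring_nf
  rw [h5, h3, h4, hψ]
  simp only
  have h6 : Real.exp (-(prim f y v t)) * Real.exp (prim f y v t) = 1 := by
    rw [← Real.exp_add, neg_add_cancel, Real.exp_zero]
  linear_combination (-(f t (y + t • v, v))) * h6

include hβ h in
theorem surv_fhat (x v : E3) {s t : ℝ} (hs : 0 ≤ s) (hst : s ≤ t) (ht : t ≤ T) :
    surv (fhat T f) s t x v =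
      ENNReal.ofReal (Real.exp (-(prim f (x - t • v) v t - prim f (x - t • v) v s))) := by
  have hsT : s ∈ Icc 0 T := ⟨hs, hst.trans ht⟩
  have htT : t ∈ Icc 0 T := ⟨hs.trans hst, ht⟩
  have h0T : (0 : ℝ) ∈ Icc 0 T := ⟨le_rfl, hsT.1.trans hsT.2⟩
  have h1 : prim f (x - t • v) v t - prim f (x - t • v) v s =
      ∫ u in s..t, nR f u (x - t • v + u • v) v := by
    unfold prim
    rw [intervalIntegral.integral_interval_sub_left
      (intervalIntegrable_nR hβ h _ v h0T htT) (intervalIntegrable_nR hβ h _ v h0T hsT)]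
  have h2 : ∀ u ∈ Ioc s t, 0 ≤ nR f u (x - t • v + u • v) v := fun u hu =>
    nR_nonneg h ⟨hs.trans hu.1.le, hu.2.trans ht⟩ _ _
  have h3 : Nint (fhat T f) s t x v =
      ENNReal.ofReal (∫ u in s..t, nR f u (x - t • v + u • v) v) := by
    rw [intervalIntegral.integral_of_le hst, ofReal_integral_eq_lintegral_ofReal]
    · unfold Nint
      refine setLIntegral_congr_fun measurableSet_Ioc fun u hu => ?_
      rw [nuOf_fhat hβ h ⟨hs.trans hu.1.le, hu.2.trans ht⟩]
      congr 2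
      module
    · exact (intervalIntegrable_iff_integrableOn_Ioc_of_le hst).1
        (intervalIntegrable_nR hβ h _ v hsT htT)
    · filter_upwards [ae_restrict_mem measurableSet_Ioc] with u hu
      exact h2 u hu
  have h4 : 0 ≤ ∫ u in s..t, nR f u (x - t • v + u • v) v := by
    rw [intervalIntegral.integral_of_le hst]
    exact setIntegral_nonneg measurableSet_Ioc h2
  rw [surv, h3, ENNReal.toReal_ofReal h4, h1]

include hβ hT in
/-- **The mild form of a regular solution**, for all `(t, x, v)`. -/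
theorem isSol (hf₀ : Measurable f₀) : (mildData f₀ hf₀ (fhat T f) (jm_fhat h)).IsSol
    (gainOf hΦ) T (fhat T f) where
  jm := jm_fhat h
  eq t ht x v := by
    have h1 := mild_real hΦ hβ hT h (x - t • v) v ht
    rw [sub_add_cancel] at h1
    have hq0 : ∀ s y, 0 ≤ qR hΦ T f s y v := fun s y => ENNReal.toReal_nonneg
    have h2 : 0 ≤ ∫ s in (0 : ℝ)..t, Real.exp (-(prim f (x - t • v) v t -
        prim f (x - t • v) v s)) * qR hΦ T f s (x - t • v + s • v) v := by
      rw [intervalIntegral.integral_of_le ht.1]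
      exact setIntegral_nonneg measurableSet_Ioc fun s _ => mul_nonneg (Real.exp_pos _).le (hq0 _ _)
    have hf0 : 0 ≤ f₀ (x - t • v, v) := by
      have := h.nonneg 0 ⟨le_rfl, hT.le⟩ (x - t • v, v)
      rwa [h.init] at this
    rw [fhat_of_mem ht, h1, ENNReal.ofReal_add (mul_nonneg hf0 (Real.exp_pos _).le) h2,
      ENNReal.ofReal_mul hf0]
    congr 1
    · change _ = ENNReal.ofReal (f₀ (x - t • v, v)) * surv (fhat T f) 0 t x v
      rw [surv_fhat hβ h x v le_rfl ht.1 ht.2]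
      simp [prim]
    · rw [intervalIntegral.integral_of_le ht.1, ofReal_integral_eq_lintegral_ofReal]
      · unfold KE.MildData.duh
        refine setLIntegral_congr_fun measurableSet_Ioc fun s hs => ?_
        change _ = surv (fhat T f) s t x v * _
        rw [surv_fhat hβ h x v hs.1.le hs.2 ht.2, ENNReal.ofReal_mul (Real.exp_pos _).le]
        congr 1
        have e : x - t • v + s • v = x - (t - s) • v := by module
        rw [e, qR, ENNReal.ofReal_toReal
          (collision_eq_qR hΦ hβ h ⟨hs.1.le, hs.2.trans ht.2⟩ _ v).2.ne]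
      · have hc : ContinuousOn (fun s => Real.exp (-(prim f (x - t • v) v t -
            prim f (x - t • v) v s)) * qR hΦ T f s (x - t • v + s • v) v) (Icc 0 T) :=
          ((continuousOn_const.sub (continuousOn_prim hβ h _ v)).neg.rexp).mul
            (continuousOn_qR hΦ hβ hT h _ v)
        exact (hc.mono (Icc_subset_Icc le_rfl ht.2)).integrableOn_Icc.mono_set Ioc_subset_Icc_self
      · exact Eventually.of_forall fun s => mul_nonneg (Real.exp_pos _).le (hq0 _ _)

end Char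

end Vale.Agent.P119.K1
end
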